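import Vale.Agent.P038.H327.Star

/-!
# Inner minimum is at most the outer minimum
-/

namespace Vale.Agent.P038.H327

open Finset

variable {V : Type*} [Fintype V] [DecidableEq V] {N : V → Finset V}

theorem mu_sub (R S : V → Finset V) : mu R - mu S = ∑ a, (((R a).card : ℤ) - (S a).card) := by
  unfold mu
  rw [sum_sub_distrib]

theorem rowHall_of_min {B U : V → Finset V} (hf : Feas N B U)
    (hmin : ∀ B' U', Feas N B' U' → fo N B U ≤ fo N B' U') : RowHall N B U := by
  intro z T hT
  set B' : V → Finset V := fun a => if a = z then B z ∪ T else B a with hB'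
  have hz : B' z = B z ∪ T := by simp [hB']
  have hne : ∀ a, a ≠ z → B' a = B a := by
    intro a ha
    simp [hB', ha]
  have hf' : Feas N B' U := by
    refine ⟨?_, hf.f2, ?_⟩
    · intro a
      by_cases ha : a = z
      · subst ha
        rw [hz]
        exact (hf.f1 a).trans subset_union_left
      · rw [hne a ha]
        exact hf.f1 a
    · intro a b hb hab
      by_cases ha : a = z
      · subst ha
        rw [hz] at hb
        rcases mem_union.1 hb with hb | hb
        · exact hf.f3 a b hb hab
        · exact (mem_sdiff.1 (hT hb)).1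
      · rw [hne a ha] at hb
        exact hf.f3 a b hb hab
  have h := hmin B' U hf'
  unfold fo at h
  have e1 : mu B' - mu B = (T.card : ℤ) := by
    rw [mu_sub, Finset.sum_eq_single z]
    · rw [hz, card_union_of_disjoint]
      · push_cast; ring
      · rw [Finset.disjoint_right]
        intro x hx
        exact (mem_sdiff.1 (hT hx)).2
    · intro a _ ha
      rw [hne a ha]
      ring
    · intro h
      exact absurd (mem_univ _) h
  have e2 : mu (opE N B') - mu (opE N B) = ((NS N T \ NS N (B z)).card : ℤ) := by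
    rw [mu_sub, Finset.sum_eq_single z]
    · unfold opE
      rw [hz, NS_union]
      have : NS N (B z) ∪ NS N T = NS N (B z) ∪ (NS N T \ NS N (B z)) := by
        rw [union_sdiff_self_eq_union]
      rw [this, card_union_of_disjoint disjoint_sdiff]
      push_cast; ring
    · intro a _ ha
      unfold opE
      rw [hne a ha]
      ring
    · intro h
      exact absurd (mem_univ _) h
  have : (T.card : ℤ) ≤ ((NS N T \ NS N (B z)).card : ℤ) := by linarith
  exact_mod_cast this

theorem colHall_of_min {B U : V → Finset V} (hf : Feas N B U)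
    (hmin : ∀ B' U', Feas N B' U' → fo N B U ≤ fo N B' U') : ColHall N B U := by
  intro x T hT
  set U' : V → Finset V := fun a => if a ∈ T then (U a).erase x else U a with hU'
  have hin : ∀ a ∈ T, U' a = (U a).erase x := by
    intro a ha
    simp [hU', ha]
  have hnot : ∀ a, a ∉ T → U' a = U a := by
    intro a ha
    simp [hU', ha]
  have hsub : ∀ a, U' a ⊆ U a := by
    intro a
    by_cases ha : a ∈ T
    · rw [hin a ha]; exact erase_subset _ _
    · rw [hnot a ha]
  have hf' : Feas N B U' := by
    refine ⟨hf.f1, fun a b h hb => hf.f2 a b h (hsub a hb), ?_⟩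
    intro a b hb hab
    have h1 := hf.f3 a b hb hab
    by_cases ha : a ∈ T
    · rw [hin a ha, mem_erase]
      refine ⟨?_, h1⟩
      rintro rfl
      exact (hT a ha).2 hb
    · rw [hnot a ha]
      exact h1
  have h := hmin B U' hf'
  unfold fo at h
  have e1 : mu U - mu U' = (T.card : ℤ) := by
    rw [mu_sub]
    have : ∀ a, (((U a).card : ℤ) - (U' a).card) = if a ∈ T then 1 else 0 := by
      intro a
      by_cases ha : a ∈ T
      · rw [if_pos ha, hin a ha, card_erase_of_mem (hT a ha).1]
        have : 0 < (U a).card := card_pos.2 ⟨x, (hT a ha).1⟩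
        push_cast [Nat.cast_sub (Nat.succ_le_of_lt this)]
        omega
      · rw [if_neg ha, hnot a ha]
        ring
    rw [sum_congr rfl fun a _ => this a]
    simp
  have e2 : mu (opA N U) - mu (opA N U') ≤
      (((NS N T).filter fun z => x ∈ opA N U z).card : ℤ) := by
    rw [mu_sub]
    have : ∀ z, (((opA N U z).card : ℤ) - (opA N U' z).card) ≤
        if z ∈ (NS N T).filter (fun z => x ∈ opA N U z) then 1 else 0 := by
      intro z
      have hsub2 : opA N U z ⊆ insert x (opA N U' z) := by
        intro b hb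
        rw [mem_insert]
        by_cases hbx : b = x
        · exact Or.inl hbx
        · right
          rw [mem_opA] at hb ⊢
          intro z' hz'
          have := hb z' hz'
          by_cases ha : z' ∈ T
          · rw [hin z' ha, mem_erase]
            exact ⟨hbx, this⟩
          · rw [hnot z' ha]
            exact this
      by_cases hz : z ∈ (NS N T).filter (fun z => x ∈ opA N U z)
      · rw [if_pos hz]
        have := (card_le_card hsub2).trans (card_insert_le _ _)
        have : ((opA N U z).card : ℤ) ≤ (opA N U' z).card + 1 := by exact_mod_cast this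
        linarith
      · rw [if_neg hz]
        have hsub3 : opA N U z ⊆ opA N U' z := by
          intro b hb
          rcases mem_insert.1 (hsub2 hb) with rfl | h'
          · rw [mem_opA] at hb ⊢
            intro z' hz'
            have h1 := hb z' hz'
            by_cases ha : z' ∈ T
            · exfalso
              apply hz
              rw [mem_filter]
              exact ⟨mem_NS.2 ⟨z', ha, hz'⟩, mem_opA.2 hb⟩
            · rw [hnot z' ha]
              exact h1
          · exact h'
        have : ((opA N U z).card : ℤ) ≤ (opA N U' z).card := by exact_mod_cast card_le_card hsub3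
        linarith
    have hZ : ∀ Z : Finset V, ∑ z, (if z ∈ Z then (1 : ℤ) else 0) = Z.card :=
      fun Z => by simp
    exact (sum_le_sum fun z _ => this z).trans (hZ _).le
  have : (T.card : ℤ) ≤ (((NS N T).filter fun z => x ∈ opA N U z).card : ℤ) := by linarith
  exact_mod_cast this

/-- The candidate. -/
theorem cand {B U : V → Finset V} (hr : ∀ x, x ∈ N x)
    (ha : ∀ x y, y ∈ N x → x ∈ N y → x = y) (hf : Feas N B U)
    (hR : RowHall N B U) (hC : ColHall N B U) :
    ∃ B' U', Feas N B' U' ∧ fi N B' U' ≤ fo N B U := by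
  set Ust : V → Finset V :=
    fun z => univ.filter fun b => ∀ z', z ∈ N z' → b ∈ NS N (B z') ∧ b ≠ z' with hUst
  set Bst : V → Finset V := fun z => NS N (opA N U z) ∪ N z with hBst
  have mUst : ∀ z b, b ∈ Ust z ↔ ∀ z', z ∈ N z' → b ∈ NS N (B z') ∧ b ≠ z' := by
    intro z b
    simp [hUst]
  have mBst : ∀ z b, b ∈ Bst z ↔ b ∈ NS N (opA N U z) ∨ b ∈ N z := by
    intro z b
    simp [hBst]
  have nm : ∀ z b, b ∈ NS N (opA N U z) → z ∉ N b := by
    intro z b hb hzb
    obtain ⟨x, hx, hbx⟩ := mem_NS.1 hb
    exact hf.f2 b x hbx (mem_opA.1 hx b hzb)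
  set B' : V → Finset V := fun z => insert z (Bst z ∩ Ust z) with hB'
  set U' : V → Finset V := fun z => Ust z ∪ (Bst z).erase z with hU'
  have mB' : ∀ z b, b ∈ B' z ↔ b = z ∨ (b ∈ Bst z ∧ b ∈ Ust z) := by
    intro z b
    simp [hB']
  have mU' : ∀ z b, b ∈ U' z ↔ b ∈ Ust z ∨ (b ≠ z ∧ b ∈ Bst z) := by
    intro z b
    simp [hU']
  have g1 : ∀ a, N a ⊆ B' a := by
    intro a b hb
    rw [mB']
    by_cases hab : b = a
    · exact Or.inl hab
    · right
      refine ⟨(mBst _ _).2 (Or.inr hb), (mUst _ _).2 ?_⟩
      intro z' hz'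
      refine ⟨mem_NS.2 ⟨a, hf.f1 z' hz', hb⟩, ?_⟩
      rintro rfl
      exact hab (ha _ _ hz' hb)
  have g2 : ∀ a b, a ∈ N b → b ∉ U' a := by
    intro a b hab hb
    rcases (mU' _ _).1 hb with hb | ⟨hne, hb⟩
    · exact ((mUst _ _).1 hb b hab).2 rfl
    · rcases (mBst _ _).1 hb with hb | hb
      · exact nm _ _ hb hab
      · exact hne (ha _ _ hab hb)
  have g3 : ∀ a b, b ∈ B' a → b ≠ a → b ∈ U' a := by
    intro a b hb hne
    rcases (mB' _ _).1 hb with hb | hb
    · exact absurd hb hne
    · exact (mU' _ _).2 (Or.inl hb.2)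
  refine ⟨B', U', ⟨g1, g2, g3⟩, ?_⟩
  -- row inequalities
  have r1 : ∀ x, ((opJ N U' x).card : ℤ) ≤
      ((opE N B x).card : ℤ) - 1 + ((NS N (U x) \ NS N (B x)).card : ℤ) := by
    intro x
    have hsub : opJ N U' x ⊆ (NS N (B x)).erase x ∪ (NS N (U x) \ NS N (B x)) := by
      intro b hb
      obtain ⟨y, hy, hby⟩ := mem_opJ.1 hb
      rw [mem_union, mem_erase, mem_sdiff]
      rcases (mU' _ _).1 hby with h | ⟨hne, h⟩
      · have := (mUst _ _).1 h x hy
        exact Or.inl ⟨this.2, this.1⟩
      · rcases (mBst _ _).1 h with h | h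
        · obtain ⟨x', hx', hbx'⟩ := mem_NS.1 h
          have hx'U : x' ∈ U x := mem_opA.1 hx' x hy
          by_cases hbB : b ∈ NS N (B x)
          · left
            refine ⟨?_, hbB⟩
            rintro rfl
            exact hf.f2 _ _ hbx' hx'U
          · right
            exact ⟨mem_NS.2 ⟨x', hx'U, hbx'⟩, hbB⟩
        · left
          refine ⟨?_, mem_NS.2 ⟨y, hf.f1 x hy, h⟩⟩
          rintro rfl
          exact hne (ha _ _ hy h)
    have hx : x ∈ NS N (B x) := mem_NS.2 ⟨x, hf.f1 x (hr x), hr x⟩
    have h1 := (card_le_card hsub).trans (card_union_le _ _)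
    rw [card_erase_of_mem hx] at h1
    have h2 : 0 < (NS N (B x)).card := card_pos.2 ⟨x, hx⟩
    unfold opE
    omega
  have zU : ∀ z, z ∉ opA N U z := fun z h => hf.f2 z z (hr z) (mem_opA.1 h z (hr z))
  have r2 : ∀ z, 1 + ((opA N U z).card : ℤ) - ((opA N U z \ opA N B z).card : ℤ) ≤
      ((opI N B' z).card : ℤ) := by
    intro z
    have hsub : insert z (opA N U z ∩ opA N B z) ⊆ opI N B' z := by
      intro x hx
      rw [mem_opI]
      rcases mem_insert.1 hx with rfl | hx
      · exact g1 _
      · rw [mem_inter] at hx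
        intro u hu
        rw [mB']
        right
        have hu' : u ∈ NS N (opA N U z) := mem_NS.2 ⟨x, hx.1, hu⟩
        refine ⟨(mBst _ _).2 (Or.inl hu'), (mUst _ _).2 ?_⟩
        intro z' hz'
        refine ⟨mem_NS.2 ⟨x, mem_opA.1 hx.2 z' hz', hu⟩, ?_⟩
        rintro rfl
        exact nm _ _ hu' hz'
    have h1 := card_le_card hsub
    rw [card_insert_of_notMem (fun h => zU z (mem_inter.1 h).1)] at h1
    have h2 := card_inter_add_card_sdiff (opA N U z) (opA N B z)
    omega
  have r3 : ∀ z, ((B' z).card : ℤ) + ((NS N (opA N U z) \ opA N (opE N B) z).card : ℤ) ≤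
      1 + ((U' z).card : ℤ) := by
    intro z
    have h1 : (B' z).card ≤ (Bst z ∩ Ust z).card + 1 := card_insert_le _ _
    have h2 : Disjoint (Bst z ∩ Ust z) (NS N (opA N U z) \ opA N (opE N B) z) := by
      rw [Finset.disjoint_left]
      intro u hu hu'
      apply (mem_sdiff.1 hu').2
      rw [mem_opA]
      intro z' hz'
      exact ((mUst _ _).1 (mem_inter.1 hu).2 z' hz').1
    have h3 : (Bst z ∩ Ust z) ∪ (NS N (opA N U z) \ opA N (opE N B) z) ⊆ U' z := by
      intro u hu
      rw [mU']
      rcases mem_union.1 hu with hu | hu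
      · exact Or.inl (mem_inter.1 hu).2
      · right
        have := (mem_sdiff.1 hu).1
        refine ⟨?_, (mBst _ _).2 (Or.inl this)⟩
        rintro rfl
        exact nm _ _ this (hr _)
    have h4 := card_le_card h3
    rw [card_union_of_disjoint h2] at h4
    omega
  have r4 : ∀ z, ((U z).card : ℤ) + 1 = ((B z).card : ℤ) + ((U z \ B z).card : ℤ) := by
    intro z
    have hz : z ∈ B z := hf.f1 z (hr z)
    have e : U z = (B z).erase z ∪ (U z \ B z) := by
      ext b
      rw [mem_union, mem_erase, mem_sdiff]
      constructor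
      · intro hb
        by_cases hbB : b ∈ B z
        · left
          refine ⟨?_, hbB⟩
          rintro rfl
          exact hf.f2 _ _ (hr _) hb
        · exact Or.inr ⟨hb, hbB⟩
      · rintro (⟨h1, h2⟩ | ⟨h1, _⟩)
        · exact hf.f3 _ _ h2 h1
        · exact h1
    have hd : Disjoint ((B z).erase z) (U z \ B z) := by
      rw [Finset.disjoint_left]
      intro u hu hu'
      exact (mem_sdiff.1 hu').2 (mem_erase.1 hu).2
    have h1 := congrArg Finset.card e
    rw [card_union_of_disjoint hd, card_erase_of_mem hz] at h1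
    have h2 : 0 < (B z).card := card_pos.2 ⟨z, hz⟩
    omega
  have hs := star hR hC
  have e1 : fi N B' U' = ∑ z, (((B' z).card : ℤ) - ((opI N B' z).card : ℤ) +
      ((opJ N U' z).card : ℤ) - ((U' z).card : ℤ)) := by
    unfold fi mu
    simp only [sum_sub_distrib, sum_add_distrib]
  have e2 : fo N B U = ∑ z, (((opE N B z).card : ℤ) - ((B z).card : ℤ) +
      ((U z).card : ℤ) - ((opA N U z).card : ℤ)) := by
    unfold fo mu
    simp only [sum_sub_distrib, sum_add_distrib]
  have hle : ∑ z, (((B' z).card : ℤ) - ((opI N B' z).card : ℤ) +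
      ((opJ N U' z).card : ℤ) - ((U' z).card : ℤ)) ≤
      ∑ z, ((((opE N B z).card : ℤ) - ((B z).card : ℤ) +
      ((U z).card : ℤ) - ((opA N U z).card : ℤ)) +
      ((((opA N U z \ opA N B z).card : ℤ) + ((NS N (U z) \ NS N (B z)).card : ℤ)) -
      (((NS N (opA N U z) \ opA N (opE N B) z).card : ℤ) + ((U z \ B z).card : ℤ)))) := by
    apply sum_le_sum
    intro z _
    have := r1 z
    have := r2 z
    have := r3 z
    have := r4 z
    linarith
  rw [e1, e2]
  refine hle.trans ?_
  rw [sum_add_distrib]
  have : ∑ z, ((((opA N U z \ opA N B z).card : ℤ) + ((NS N (U z) \ NS N (B z)).card : ℤ)) -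
      (((NS N (opA N U z) \ opA N (opE N B) z).card : ℤ) + ((U z \ B z).card : ℤ))) ≤ 0 := by
    simp only [sum_sub_distrib, sum_add_distrib]
    linarith
  linarith

end Vale.Agent.P038.H327
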