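import Vale.Agent.P038.H327.Ops

/-!
# 294's theorem: in an arc-minimal counterexample all sets expand concavely
-/

namespace Vale.Agent.P038.H327

open Finset

variable {V : Type*} [Fintype V] [DecidableEq V]

/-- Counterexample, in terms of closed out-neighbourhoods. -/
structure CE (N : V → Finset V) : Prop where
  hr : ∀ x, x ∈ N x
  ha : ∀ x y, y ∈ N x → x ∈ N y → x = y
  hc : ∀ v, (NS N (N v)).card + 2 ≤ 2 * (N v).card

/-- Concavity defect. -/
def hh (N : V → Finset V) (S : Finset V) : ℤ :=
  2 * ((NS N S).card : ℤ) - (S.card : ℤ) - ((NS N (NS N S)).card : ℤ)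

theorem exists_min_CE (h : ∃ N : V → Finset V, CE N) :
    ∃ N : V → Finset V, CE N ∧ ∀ N' : V → Finset V, CE N' →
      ∑ v, (N v).card ≤ ∑ v, (N' v).card := by
  classical
  obtain ⟨N, hN⟩ := h
  obtain ⟨M, hM, hmin⟩ := Finset.exists_min_image
    ((univ : Finset (V → Finset V)).filter fun N => CE N) (fun N => ∑ v, (N v).card)
    ⟨N, mem_filter.2 ⟨mem_univ _, hN⟩⟩
  exact ⟨M, (mem_filter.1 hM).2, fun N' hN' => hmin N' (mem_filter.2 ⟨mem_univ _, hN'⟩)⟩

theorem expand {N : V → Finset V} (hN : CE N)
    (hmin : ∀ N' : V → Finset V, CE N' → ∑ v, (N v).card ≤ ∑ v, (N' v).card)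
    (X : Finset V) (hX : NS N X ≠ X) : 0 < hh N X := by
  classical
  by_contra hneg
  push_neg at hneg
  have hXN : X ⊆ NS N X := subset_NS hN.hr X
  set L : Finset V := NS N X \ X with hL
  have hLne : L.Nonempty := by
    rw [hL, sdiff_nonempty]
    exact fun h => hX (Subset.antisymm h hXN)
  set d : Finset V → ℤ := fun T => ((NS N T \ X).card : ℤ) - 2 * (T.card : ℤ) with hd
  -- minimiser among proper subsets
  obtain ⟨T, hT, hTmin⟩ := Finset.exists_min_image L.ssubsets d
    ⟨∅, by rw [mem_ssubsets]; exact (empty_ssubset).2 hLne⟩
  rw [mem_ssubsets] at hT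
  have hd0 : d T ≤ 0 := by
    have := hTmin ∅ (by rw [mem_ssubsets]; exact (empty_ssubset).2 hLne)
    simpa [hd, NS] using this
  have hdL : 0 ≤ d L := by
    have e1 : NS N (NS N X) = X ∪ (NS N L \ X) := by
      have : NS N X = X ∪ L := by rw [hL, union_sdiff_of_subset hXN]
      rw [this, NS_union]
      ext u
      simp only [mem_union, mem_sdiff]
      constructor
      · rintro (h | h)
        · by_cases hu : u ∈ X
          · exact Or.inl hu
          · right
            refine ⟨subset_NS hN.hr L ?_, hu⟩
            rw [hL, mem_sdiff]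
            exact ⟨h, hu⟩
        · by_cases hu : u ∈ X
          · exact Or.inl hu
          · exact Or.inr ⟨h, hu⟩
      · rintro (h | h)
        · exact Or.inl (hXN h)
        · exact Or.inr h.1
    have e2 : (NS N (NS N X)).card = X.card + (NS N L \ X).card := by
      rw [e1, card_union_of_disjoint disjoint_sdiff]
    have e3 : L.card + X.card = (NS N X).card := by
      rw [hL, card_sdiff_add_card_eq_card hXN]
    have e4 : hh N X = 2 * ((NS N X).card : ℤ) - (X.card : ℤ) -
        ((NS N (NS N X)).card : ℤ) := rfl
    have e2' : ((NS N (NS N X)).card : ℤ) = X.card + (NS N L \ X).card := by exact_mod_cast e2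
    have e3' : (L.card : ℤ) + X.card = (NS N X).card := by exact_mod_cast e3
    simp only [hd]
    linarith
  -- the new graph
  set N' : V → Finset V := fun y => if y ∈ X then N y ∩ (X ∪ T) else N y with hN'
  have hin : ∀ y ∈ X, N' y = N y ∩ (X ∪ T) := by
    intro y hy
    simp [hN', hy]
  have hout : ∀ y, y ∉ X → N' y = N y := by
    intro y hy
    simp [hN', hy]
  have hsub : ∀ y, N' y ⊆ N y := by
    intro y
    by_cases hy : y ∈ X
    · rw [hin y hy]; exact inter_subset_left
    · rw [hout y hy]
  have hCE' : CE N' := by
    refine ⟨?_, ?_, ?_⟩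
    · intro x
      by_cases hx : x ∈ X
      · rw [hin x hx, mem_inter, mem_union]
        exact ⟨hN.hr x, Or.inl hx⟩
      · rw [hout x hx]
        exact hN.hr x
    · intro x y h1 h2
      exact hN.ha x y (hsub _ h1) (hsub _ h2)
    · intro v
      by_cases hv : v ∈ X
      · set Dv : Finset V := N v \ (X ∪ T) with hDv
        have hNv : N' v = N v ∩ (X ∪ T) := hin v hv
        have c1 : (N' v).card + Dv.card = (N v).card := by
          rw [hNv, hDv]
          exact card_inter_add_card_sdiff _ _
        have hDL : Dv ⊆ L \ T := by
          intro z hz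
          rw [hDv, mem_sdiff, mem_union, not_or] at hz
          rw [mem_sdiff, hL, mem_sdiff]
          exact ⟨⟨mem_NS.2 ⟨v, hv, hz.1⟩, hz.2.1⟩, hz.2.2⟩
        set E : Finset V := NS N Dv \ (NS N T ∪ X) with hE
        have c2 : (NS N' (N' v)).card + E.card ≤ (NS N (N v)).card := by
          have hdis : Disjoint (NS N' (N' v)) E := by
            rw [Finset.disjoint_left]
            intro z hz hzE
            rw [hE, mem_sdiff, mem_union, not_or] at hzE
            obtain ⟨s, hs, hzs⟩ := mem_NS.1 hz
            rw [hNv, mem_inter, mem_union] at hs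
            by_cases hsX : s ∈ X
            · rw [hin s hsX, mem_inter, mem_union] at hzs
              rcases hzs.2 with h | h
              · exact hzE.2.2 h
              · exact hzE.2.1 (subset_NS hN.hr T h)
            · rw [hout s hsX] at hzs
              rcases hs.2 with h | h
              · exact hsX h
              · exact hzE.2.1 (mem_NS.2 ⟨s, h, hzs⟩)
          rw [← card_union_of_disjoint hdis]
          apply card_le_card
          intro z hz
          rcases mem_union.1 hz with hz | hz
          · obtain ⟨s, hs, hzs⟩ := mem_NS.1 hz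
            exact mem_NS.2 ⟨s, hsub _ hs, hsub _ hzs⟩
          · rw [hE, mem_sdiff] at hz
            exact NS_mono sdiff_subset hz.1
        have c3 : 2 * (Dv.card : ℤ) ≤ (E.card : ℤ) := by
          have hdT : d (T ∪ Dv) - d T = (E.card : ℤ) - 2 * (Dv.card : ℤ) := by
            have f1 : (T ∪ Dv).card = T.card + Dv.card := by
              apply card_union_of_disjoint
              rw [Finset.disjoint_left]
              intro z hz hz'
              exact (mem_sdiff.1 (hDL hz')).2 hz
            have f2 : NS N (T ∪ Dv) \ X = (NS N T \ X) ∪ E := by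
              rw [NS_union]
              ext z
              simp only [hE, mem_union, mem_sdiff, not_or]
              tauto
            have f3 : Disjoint (NS N T \ X) E := by
              rw [Finset.disjoint_left]
              intro z hz hz'
              rw [hE, mem_sdiff, mem_union, not_or] at hz'
              exact hz'.2.1 (mem_sdiff.1 hz).1
            simp only [hd]
            rw [f2, card_union_of_disjoint f3, f1]
            push_cast
            ring
          have hsubL : T ∪ Dv ⊆ L :=
            union_subset hT.1 (fun z hz => (mem_sdiff.1 (hDL hz)).1)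
          have : d T ≤ d (T ∪ Dv) := by
            by_cases hTL : T ∪ Dv = L
            · rw [hTL]
              linarith
            · exact hTmin _ (mem_ssubsets.2 (Finset.ssubset_iff_subset_ne.2 ⟨hsubL, hTL⟩))
          linarith
        have c4 := hN.hc v
        have c3' : 2 * Dv.card ≤ E.card := by exact_mod_cast c3
        omega
      · rw [hout v hv]
        refine le_trans ?_ (hN.hc v)
        apply Nat.add_le_add_right
        apply card_le_card
        intro z hz
        obtain ⟨s, hs, hzs⟩ := mem_NS.1 hz
        exact mem_NS.2 ⟨s, hs, hsub _ hzs⟩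
  have hlt : ∑ v, (N' v).card < ∑ v, (N v).card := by
    apply sum_lt_sum
    · intro v _
      exact card_le_card (hsub v)
    · obtain ⟨x, hxL, hxT⟩ := Finset.exists_of_ssubset hT
      rw [hL, mem_sdiff] at hxL
      obtain ⟨y, hy, hxy⟩ := mem_NS.1 hxL.1
      refine ⟨y, mem_univ _, card_lt_card ⟨hsub y, fun h => ?_⟩⟩
      have := h hxy
      rw [hin y hy, mem_inter, mem_union] at this
      rcases this.2 with h | h
      · exact hxL.2 h
      · exact hxT h
  exact absurd (hmin N' hCE') (not_le.2 hlt)

theorem expand_nonneg {N : V → Finset V} (hN : CE N)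
    (hmin : ∀ N' : V → Finset V, CE N' → ∑ v, (N v).card ≤ ∑ v, (N' v).card)
    (X : Finset V) : 0 ≤ hh N X := by
  by_cases hX : NS N X = X
  · unfold hh
    rw [hX, hX]
    linarith
  · exact (expand hN hmin X hX).le

end Vale.Agent.P038.H327
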