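import Vale.Agent.P038.H327.Cand
import Vale.Agent.P038.H327.Exp
import Vale.Agent.P038.Defs

/-!
# Seymour's second neighbourhood conjecture
-/

namespace Vale.Agent.P038.H327

open Finset

variable {V : Type*} [Fintype V] [DecidableEq V] {N : V → Finset V}

theorem feas_exists (hr : ∀ x, x ∈ N x) (ha : ∀ x y, y ∈ N x → x ∈ N y → x = y) :
    Feas N N (fun a => univ.filter fun b => a ∉ N b) := by
  refine ⟨fun a => Subset.rfl, ?_, ?_⟩
  · intro a b h hb
    exact (mem_filter.1 hb).2 h
  · intro a b hb hab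
    exact mem_filter.2 ⟨mem_univ _, fun h => hab (ha _ _ h hb)⟩

/-- Column sums. -/
theorem mu_col (R : V → Finset V) :
    mu R = ∑ b, ((univ.filter fun y => b ∈ R y).card : ℤ) := by
  unfold mu
  have h1 : ∀ a, ((R a).card : ℤ) = ∑ b, (if b ∈ R a then (1 : ℤ) else 0) := by
    intro a; simp
  have h2 : ∀ b, ((univ.filter fun y => b ∈ R y).card : ℤ) =
      ∑ a, (if b ∈ R a then (1 : ℤ) else 0) := by
    intro b; simp
  rw [sum_congr rfl fun a _ => h1 a, sum_congr rfl fun b _ => h2 b, sum_comm]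

theorem card_compl_filter (p : V → Prop) [DecidablePred p] :
    ((univ.filter fun y => ¬ p y).card : ℤ) =
      (Fintype.card V : ℤ) - ((univ.filter fun y => p y).card : ℤ) := by
  have := Finset.card_filter_add_card_filter_not (s := (univ : Finset V)) p
  rw [card_univ] at this
  have : (((univ.filter fun y => p y).card : ℤ)) + ((univ.filter fun y => ¬ p y).card : ℤ) =
    (Fintype.card V : ℤ) := by exact_mod_cast this
  linarith

/-- The sum inequality at an inner minimiser. -/
theorem sum_le_zero (hr : ∀ x, x ∈ N x) (ha : ∀ x y, y ∈ N x → x ∈ N y → x = y) :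
    ∃ X Y : V → Finset V, (∀ a, a ∈ X a) ∧ (∀ a b, a ∈ N b → b ≠ a → b ∉ NS N (X a)) ∧
      ∑ a, hh N (X a) + ∑ b, hh N (Y b) ≤ 0 := by
  classical
  let P : Finset ((V → Finset V) × (V → Finset V)) := univ.filter fun p => Feas N p.1 p.2
  have hP : P.Nonempty := ⟨(_, _), mem_filter.2 ⟨mem_univ _, feas_exists hr ha⟩⟩
  obtain ⟨⟨B, U⟩, hBU, hmin⟩ := Finset.exists_min_image P (fun p => fi N p.1 p.2) hP
  obtain ⟨⟨B0, U0⟩, hBU0, hmin0⟩ := Finset.exists_min_image P (fun p => fo N p.1 p.2) hP
  have hf : Feas N B U := (mem_filter.1 hBU).2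
  have hf0 : Feas N B0 U0 := (mem_filter.1 hBU0).2
  have hmin' : ∀ B' U', Feas N B' U' → fi N B U ≤ fi N B' U' :=
    fun B' U' h => hmin (B', U') (mem_filter.2 ⟨mem_univ _, h⟩)
  have hmin0' : ∀ B' U', Feas N B' U' → fo N B0 U0 ≤ fo N B' U' :=
    fun B' U' h => hmin0 (B', U') (mem_filter.2 ⟨mem_univ _, h⟩)
  obtain ⟨B1, U1, hf1, h1⟩ := cand hr ha hf0 (rowHall_of_min hf0 hmin0')
    (colHall_of_min hf0 hmin0')
  -- the shrunken pair
  set X : V → Finset V := opI N B with hX
  set L : V → Finset V := fun a => NS N (X a) with hL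
  set M : V → Finset V := opA N (opJ N U) with hM
  have hXa : ∀ a, a ∈ X a := fun a => mem_opI.2 (hf.f1 a)
  have hLB : ∀ a, L a ⊆ B a := by
    intro a u hu
    obtain ⟨x, hx, hux⟩ := mem_NS.1 hu
    exact mem_opI.1 hx hux
  have hUM : ∀ a, U a ⊆ M a := by
    intro a b hb
    rw [hM, mem_opA]
    intro z' hz'
    exact mem_opJ.2 ⟨a, hz', hb⟩
  have hfLM : Feas N L M := by
    refine ⟨?_, ?_, ?_⟩
    · intro a b hb
      exact mem_NS.2 ⟨a, hXa a, hb⟩
    · intro a b hab hb
      rw [hM, mem_opA] at hb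
      obtain ⟨v, hv, hbv⟩ := mem_opJ.1 (hb b hab)
      exact hf.f2 v b hv hbv
    · intro a b hb hab
      exact hUM a (hf.f3 a b (hLB a hb) hab)
  have h2 := hmin0' L M hfLM
  have h3 := hmin' B1 U1 hf1
  have h4 : mu L ≤ mu B := sum_le_sum fun a _ => by
    exact_mod_cast card_le_card (hLB a)
  have h5 : mu U ≤ mu M := sum_le_sum fun a _ => by
    exact_mod_cast card_le_card (hUM a)
  refine ⟨X, fun b => univ.filter fun y => ¬ b ∈ opJ N U y, hXa, ?_, ?_⟩
  · intro a b hab hne hb
    exact hf.f2 a b hab (hf.f3 a b (hLB a hb) hne)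
  · have s1 : ∑ a, hh N (X a) = 2 * mu L - mu X - mu (opE N L) := by
      unfold hh mu opE
      simp only [sum_sub_distrib, hL, ← mul_sum]
    have nY1 : ∀ b, NS N (univ.filter fun y => ¬ b ∈ opJ N U y) =
        univ.filter fun v => ¬ b ∈ M v := by
      intro b
      ext v
      rw [mem_NS, mem_filter, hM, mem_opA]
      constructor
      · rintro ⟨y, hy, hv⟩
        exact ⟨mem_univ _, fun h => (mem_filter.1 hy).2 (h y hv)⟩
      · rintro ⟨_, h⟩
        push_neg at h
        obtain ⟨y, hy, hb⟩ := h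
        exact ⟨y, mem_filter.2 ⟨mem_univ _, hb⟩, hy⟩
    have nY2 : ∀ b, NS N (univ.filter fun y => ¬ b ∈ M y) =
        univ.filter fun v => ¬ b ∈ opA N M v := by
      intro b
      ext v
      rw [mem_NS, mem_filter, mem_opA]
      constructor
      · rintro ⟨y, hy, hv⟩
        exact ⟨mem_univ _, fun h => (mem_filter.1 hy).2 (h y hv)⟩
      · rintro ⟨_, h⟩
        push_neg at h
        obtain ⟨y, hy, hb⟩ := h
        exact ⟨y, mem_filter.2 ⟨mem_univ _, hb⟩, hy⟩
    have s2 : ∑ b, hh N (univ.filter fun y => ¬ b ∈ opJ N U y) =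
        - 2 * mu M + mu (opJ N U) + mu (opA N M) := by
      have : ∀ b, hh N (univ.filter fun y => ¬ b ∈ opJ N U y) =
          - 2 * ((univ.filter fun y => b ∈ M y).card : ℤ) +
          ((univ.filter fun y => b ∈ opJ N U y).card : ℤ) +
          ((univ.filter fun y => b ∈ opA N M y).card : ℤ) := by
        intro b
        unfold hh
        rw [nY1, nY2, card_compl_filter, card_compl_filter, card_compl_filter]
        ring
      rw [sum_congr rfl fun b _ => this b, mu_col M, mu_col (opJ N U), mu_col (opA N M)]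
      simp only [sum_add_distrib, ← mul_sum]
    rw [s1, s2]
    unfold fi at h3
    unfold fo at h2
    have h1' : fi N B1 U1 ≤ fo N B0 U0 := h1
    unfold fi fo at h1'
    linarith

/-- There is no counterexample. -/
theorem no_CE [Nonempty V] : ¬ ∃ N : V → Finset V, CE N := by
  classical
  intro hex
  obtain ⟨N, hN, hmin⟩ := exists_min_CE hex
  obtain ⟨X, Y, hXa, hXn, hsum⟩ := sum_le_zero hN.hr hN.ha
  have hX0 : ∀ a, 0 ≤ hh N (X a) := fun a => expand_nonneg hN hmin _
  have hY0 : ∀ a, 0 ≤ hh N (Y a) := fun a => expand_nonneg hN hmin _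
  have hclosed : ∀ a, NS N (X a) = X a := by
    intro a
    by_contra h
    have hpos := expand hN hmin _ h
    have h1 : 0 < ∑ a, hh N (X a) :=
      sum_pos' (fun a _ => hX0 a) ⟨a, mem_univ _, hpos⟩
    have h2 : 0 ≤ ∑ b, hh N (Y b) := sum_nonneg fun b _ => hY0 b
    linarith
  -- a minimal nonempty closed set
  obtain ⟨C, hC, hCmin⟩ := Finset.exists_min_image
    ((univ : Finset (Finset V)).filter fun C => C.Nonempty ∧ NS N C ⊆ C) Finset.card
    ⟨univ, mem_filter.2 ⟨mem_univ _, univ_nonempty, subset_univ _⟩⟩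
  rw [mem_filter] at hC
  obtain ⟨v, hv⟩ := hC.2.1
  -- an out-neighbour of `v`
  have hdeg : ∃ a ∈ N v, a ≠ v := by
    by_contra h
    push_neg at h
    have h1 : (N v).card ≤ 1 := by
      rw [card_le_one]
      intro x hx y hy
      rw [h x hx, h y hy]
    have h2 := hN.hc v
    have h3 : (N v).card ≤ (NS N (N v)).card := card_le_card (subset_NS hN.hr _)
    omega
  obtain ⟨a, hav, hane⟩ := hdeg
  have haC : a ∈ C := hC.2.2 (mem_NS.2 ⟨v, hv, hav⟩)
  have hmem : v ∈ X a := by
    have hcl : NS N (X a ∩ C) ⊆ X a ∩ C := by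
      intro u hu
      obtain ⟨x, hx, hux⟩ := mem_NS.1 hu
      rw [mem_inter] at hx ⊢
      refine ⟨?_, hC.2.2 (mem_NS.2 ⟨x, hx.2, hux⟩)⟩
      rw [← hclosed a]
      exact mem_NS.2 ⟨x, hx.1, hux⟩
    have h1 := hCmin (X a ∩ C) (mem_filter.2 ⟨mem_univ _,
      ⟨a, mem_inter.2 ⟨hXa a, haC⟩⟩, hcl⟩)
    have h2 : X a ∩ C = C := eq_of_subset_of_card_le inter_subset_right h1
    rw [← h2] at hv
    exact (mem_inter.1 hv).1
  exact hXn a v hav (Ne.symm hane) (subset_NS hN.hr _ hmem)

open Classical in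
/-- **Seymour's second neighbourhood conjecture.** -/
theorem seymour {V : Type*} [Fintype V] [Nonempty V] (D : OGraph V) :
    ∃ v, (N1 D v).card ≤ (N2 D v).card := by
  by_contra hcon
  push_neg at hcon
  apply no_CE (V := V)
  refine ⟨fun v => insert v (N1 D v), ?_, ?_, ?_⟩
  · intro x
    exact mem_insert_self _ _
  · intro x y h1 h2
    rcases mem_insert.1 h1 with h1 | h1
    · exact h1.symm
    · rcases mem_insert.1 h2 with h2 | h2
      · exact h2
      · exact absurd (mem_N1.1 h2) (D.asymm _ _ (mem_N1.1 h1))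
  · intro v
    have hv1 : v ∉ N1 D v := fun h => D.loopless v (mem_N1.1 h)
    have e : NS (fun v => insert v (N1 D v)) (insert v (N1 D v)) ⊆
        insert v (N1 D v ∪ N2 D v) := by
      intro u hu
      obtain ⟨x, hx, hux⟩ := mem_NS.1 hu
      simp only [mem_insert, mem_union, mem_N1, mem_N2] at hx hux ⊢
      by_cases h1 : u = v
      · exact Or.inl h1
      · by_cases h2 : D.arc v u
        · exact Or.inr (Or.inl h2)
        · right; right
          refine ⟨h1, h2, ?_⟩
          rcases hx with rfl | hx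
          · rcases hux with h | h
            · exact absurd h h1
            · exact absurd h h2
          · rcases hux with rfl | hux
            · exact absurd hx h2
            · exact ⟨x, hx, hux⟩
    have h1 := card_le_card e
    have h2 := card_insert_le v (N1 D v ∪ N2 D v)
    have h3 := card_union_le (N1 D v) (N2 D v)
    have h4 : (insert v (N1 D v)).card = (N1 D v).card + 1 := card_insert_of_notMem hv1
    have h5 := hcon v
    show (NS (fun v => insert v (N1 D v)) (insert v (N1 D v))).card + 2 ≤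
      2 * (insert v (N1 D v)).card
    omega

end Vale.Agent.P038.H327
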