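import Vale.Agent.P038.MathlibUsed

/-!
# Operators on relations given by rows (problem P038), unweighted version
-/

namespace Vale.Agent.P038.H327

open Finset

variable {V : Type*} [Fintype V] [DecidableEq V]

/-- Closed out-neighbourhood of a set. -/
def NS (N : V → Finset V) (S : Finset V) : Finset V := S.biUnion N

/-- Inner part (rows). -/
def opI (N : V → Finset V) (B : V → Finset V) (a : V) : Finset V :=
  univ.filter fun x => N x ⊆ B a

/-- Erosion in the columns. -/
def opA (N : V → Finset V) (R : V → Finset V) (z : V) : Finset V :=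
  univ.filter fun b => ∀ z', z ∈ N z' → b ∈ R z'

/-- Dilation in the columns. -/
def opJ (N : V → Finset V) (R : V → Finset V) (x : V) : Finset V :=
  univ.filter fun b => ∃ y ∈ N x, b ∈ R y

/-- Dilation in the rows. -/
def opE (N : V → Finset V) (R : V → Finset V) (a : V) : Finset V := NS N (R a)

variable {N : V → Finset V}

theorem mem_NS {S : Finset V} {u : V} : u ∈ NS N S ↔ ∃ x ∈ S, u ∈ N x := by
  simp [NS]

theorem mem_opI {B : V → Finset V} {a x : V} : x ∈ opI N B a ↔ N x ⊆ B a := by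
  simp [opI]

theorem mem_opA {R : V → Finset V} {z b : V} :
    b ∈ opA N R z ↔ ∀ z', z ∈ N z' → b ∈ R z' := by
  simp [opA]

theorem mem_opJ {R : V → Finset V} {x b : V} :
    b ∈ opJ N R x ↔ ∃ y ∈ N x, b ∈ R y := by
  simp [opJ]

theorem mem_opE {R : V → Finset V} {a u : V} :
    u ∈ opE N R a ↔ ∃ x ∈ R a, u ∈ N x := by
  simp [opE, mem_NS]

theorem NS_mono {S T : Finset V} (h : S ⊆ T) : NS N S ⊆ NS N T := by
  intro u hu
  rw [mem_NS] at hu ⊢
  obtain ⟨x, hx, hux⟩ := hu
  exact ⟨x, h hx, hux⟩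

theorem NS_union {S T : Finset V} : NS N (S ∪ T) = NS N S ∪ NS N T := by
  ext u
  simp only [mem_NS, mem_union]
  constructor
  · rintro ⟨x, hx | hx, hu⟩
    · exact Or.inl ⟨x, hx, hu⟩
    · exact Or.inr ⟨x, hx, hu⟩
  · rintro (⟨x, hx, hu⟩ | ⟨x, hx, hu⟩)
    · exact ⟨x, Or.inl hx, hu⟩
    · exact ⟨x, Or.inr hx, hu⟩

theorem subset_NS (hr : ∀ x, x ∈ N x) (S : Finset V) : S ⊆ NS N S := by
  intro x hx
  exact mem_NS.2 ⟨x, hx, hr x⟩

/-- A pair of relations which is admissible. -/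
structure Feas (N : V → Finset V) (B U : V → Finset V) : Prop where
  f1 : ∀ a, N a ⊆ B a
  f2 : ∀ a b, a ∈ N b → b ∉ U a
  f3 : ∀ a b, b ∈ B a → b ≠ a → b ∈ U a

/-- Total size. -/
def mu (R : V → Finset V) : ℤ := ∑ a, ((R a).card : ℤ)

/-- Inner cost. -/
def fi (N : V → Finset V) (B U : V → Finset V) : ℤ :=
  mu B - mu (opI N B) + mu (opJ N U) - mu U

/-- Outer cost. -/
def fo (N : V → Finset V) (B U : V → Finset V) : ℤ :=
  mu (opE N B) - mu B + mu U - mu (opA N U)

end Vale.Agent.P038.H327
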