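import Vale.Agent.P038.H327.Ops

/-!
# The product inequality `μ(P) + μ(Q) ≤ μ(K) + μ(G)`
-/

namespace Vale.Agent.P038.H327

open Finset

variable {V : Type*} [Fintype V] [DecidableEq V] {N : V → Finset V}

/-- Row Hall condition. -/
def RowHall (N : V → Finset V) (B U : V → Finset V) : Prop :=
  ∀ z' T, T ⊆ U z' \ B z' → T.card ≤ (NS N T \ NS N (B z')).card

/-- Column Hall condition. -/
def ColHall (N : V → Finset V) (B U : V → Finset V) : Prop :=
  ∀ x (T : Finset V), (∀ z' ∈ T, x ∈ U z' ∧ x ∉ B z') →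
    T.card ≤ ((NS N T).filter fun z => x ∈ opA N U z).card

theorem hallA {B U : V → Finset V} (hR : RowHall N B U) (z : V) (F : Finset V)
    (hF : ∀ z' ∈ F, z ∈ N z') :
    ∀ T, T ⊆ opA N U z →
      (T.filter fun x => ¬ ∀ z' ∈ F, x ∈ B z').card ≤
        ((NS N T).filter fun u => ¬ ∀ z' ∈ F, u ∈ NS N (B z')).card := by
  classical
  induction F using Finset.induction_on with
  | empty =>
    intro T _
    simp
  | insert z' F hz' ih =>
    intro T hT
    have ih' := ih (fun y hy => hF y (mem_insert_of_mem hy)) (T ∩ B z')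
      (fun x hx => hT (mem_inter.1 hx).1)
    have h1 : T \ B z' ⊆ U z' \ B z' := by
      intro x hx
      rw [mem_sdiff] at hx ⊢
      exact ⟨mem_opA.1 (hT hx.1) z' (hF z' (mem_insert_self _ _)), hx.2⟩
    have h2 := hR z' _ h1
    have h3 : (T.filter fun x => ¬ ∀ y ∈ insert z' F, x ∈ B y) ⊆
        (T \ B z') ∪ ((T ∩ B z').filter fun x => ¬ ∀ y ∈ F, x ∈ B y) := by
      intro x hx
      rw [mem_filter] at hx
      rw [mem_union, mem_sdiff, mem_filter, mem_inter]
      by_cases hb : x ∈ B z'
      · right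
        refine ⟨⟨hx.1, hb⟩, fun h => hx.2 ?_⟩
        intro y hy
        rcases mem_insert.1 hy with rfl | hy
        · exact hb
        · exact h y hy
      · exact Or.inl ⟨hx.1, hb⟩
    have h4 : Disjoint (NS N (T \ B z') \ NS N (B z'))
        ((NS N (T ∩ B z')).filter fun u => ¬ ∀ y ∈ F, u ∈ NS N (B y)) := by
      rw [Finset.disjoint_left]
      intro u hu hu'
      rw [mem_sdiff] at hu
      rw [mem_filter] at hu'
      exact hu.2 (NS_mono inter_subset_right hu'.1)
    have h5 : (NS N (T \ B z') \ NS N (B z')) ∪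
        ((NS N (T ∩ B z')).filter fun u => ¬ ∀ y ∈ F, u ∈ NS N (B y)) ⊆
        (NS N T).filter fun u => ¬ ∀ y ∈ insert z' F, u ∈ NS N (B y) := by
      intro u hu
      rw [mem_filter]
      rcases mem_union.1 hu with hu | hu
      · rw [mem_sdiff] at hu
        exact ⟨NS_mono sdiff_subset hu.1, fun h => hu.2 (h z' (mem_insert_self _ _))⟩
      · rw [mem_filter] at hu
        exact ⟨NS_mono inter_subset_left hu.1,
          fun h => hu.2 fun y hy => h y (mem_insert_of_mem hy)⟩
    calc _ ≤ ((T \ B z') ∪ ((T ∩ B z').filter fun x => ¬ ∀ y ∈ F, x ∈ B y)).card :=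
          card_le_card h3
      _ ≤ (T \ B z').card + ((T ∩ B z').filter fun x => ¬ ∀ y ∈ F, x ∈ B y).card :=
          card_union_le _ _
      _ ≤ _ := add_le_add h2 ih'
      _ = _ := (card_union_of_disjoint h4).symm
      _ ≤ _ := card_le_card h5

theorem hallB {B U : V → Finset V} (hC : ColHall N B U) (u : V) (F : Finset V)
    (hF : ∀ x ∈ F, u ∈ N x) :
    ∀ T : Finset V, (∀ z' ∈ T, u ∉ NS N (B z')) →
      (T.filter fun z' => ∃ x ∈ F, x ∈ U z').card ≤
        ((NS N T).filter fun z => ∃ x ∈ F, x ∈ opA N U z).card := by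
  classical
  induction F using Finset.induction_on with
  | empty =>
    intro T _
    simp
  | insert x F hx ih =>
    intro T hT
    have ih' := ih (fun y hy => hF y (mem_insert_of_mem hy)) (T.filter fun z' => x ∉ U z')
      (fun z' hz' => hT z' (mem_filter.1 hz').1)
    have h2 := hC x (T.filter fun z' => x ∈ U z') (by
      intro z' hz'
      rw [mem_filter] at hz'
      exact ⟨hz'.2, fun h => hT z' hz'.1 (mem_NS.2 ⟨x, h, hF x (mem_insert_self _ _)⟩)⟩)
    have h3 : (T.filter fun z' => ∃ y ∈ insert x F, y ∈ U z') ⊆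
        (T.filter fun z' => x ∈ U z') ∪
          ((T.filter fun z' => x ∉ U z').filter fun z' => ∃ y ∈ F, y ∈ U z') := by
      intro z hz
      rw [mem_filter] at hz
      rw [mem_union, mem_filter, mem_filter, mem_filter]
      by_cases hb : x ∈ U z
      · exact Or.inl ⟨hz.1, hb⟩
      · right
        refine ⟨⟨hz.1, hb⟩, ?_⟩
        obtain ⟨y, hy, hyz⟩ := hz.2
        rcases mem_insert.1 hy with rfl | hy
        · exact absurd hyz hb
        · exact ⟨y, hy, hyz⟩
    have h4 : Disjoint ((NS N (T.filter fun z' => x ∈ U z')).filter fun z => x ∈ opA N U z)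
        ((NS N (T.filter fun z' => x ∉ U z')).filter fun z => ∃ y ∈ F, y ∈ opA N U z) := by
      rw [Finset.disjoint_left]
      intro z hz hz'
      rw [mem_filter] at hz hz'
      obtain ⟨z', hz1, hz2⟩ := mem_NS.1 hz'.1
      rw [mem_filter] at hz1
      exact hz1.2 (mem_opA.1 hz.2 z' hz2)
    have h5 : ((NS N (T.filter fun z' => x ∈ U z')).filter fun z => x ∈ opA N U z) ∪
        ((NS N (T.filter fun z' => x ∉ U z')).filter fun z => ∃ y ∈ F, y ∈ opA N U z) ⊆
        (NS N T).filter fun z => ∃ y ∈ insert x F, y ∈ opA N U z := by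
      intro z hz
      rw [mem_filter]
      rcases mem_union.1 hz with hz | hz
      · rw [mem_filter] at hz
        exact ⟨NS_mono (filter_subset _ _) hz.1, x, mem_insert_self _ _, hz.2⟩
      · rw [mem_filter] at hz
        obtain ⟨y, hy, hyz⟩ := hz.2
        exact ⟨NS_mono (filter_subset _ _) hz.1, y, mem_insert_of_mem hy, hyz⟩
    calc _ ≤ _ := card_le_card h3
      _ ≤ _ := card_union_le _ _
      _ ≤ _ := add_le_add h2 ih'
      _ = _ := (card_union_of_disjoint h4).symm
      _ ≤ _ := card_le_card h5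

/-- The excess function. -/
noncomputable def mm (N : V → Finset V) (S β W : Finset V) : ℤ :=
  S.powerset.sup' ⟨∅, by simp⟩
    (fun T => (T.card : ℤ) - (((NS N T \ β) \ W).card : ℤ))

theorem le_mm {S β W T : Finset V} (h : T ⊆ S) :
    (T.card : ℤ) - (((NS N T \ β) \ W).card : ℤ) ≤ mm N S β W := by
  unfold mm
  exact Finset.le_sup' (fun T => (T.card : ℤ) - (((NS N T \ β) \ W).card : ℤ))
    (mem_powerset.2 h)

theorem exists_mm (N : V → Finset V) (S β W : Finset V) :
    ∃ T ⊆ S, mm N S β W = (T.card : ℤ) - (((NS N T \ β) \ W).card : ℤ) := by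
  obtain ⟨T, hT, h⟩ := Finset.exists_mem_eq_sup' (s := S.powerset) ⟨∅, by simp⟩
    (fun T => (T.card : ℤ) - (((NS N T \ β) \ W).card : ℤ))
  exact ⟨T, mem_powerset.1 hT, h⟩

theorem mm_nonneg (N : V → Finset V) (S β W : Finset V) : 0 ≤ mm N S β W := by
  have := le_mm (N := N) (S := S) (β := β) (W := W) (T := ∅) (empty_subset _)
  simpa [NS] using this

theorem mm_univ (N : V → Finset V) (S β : Finset V) : mm N S β univ = S.card := by
  apply le_antisymm
  · obtain ⟨T, hT, h⟩ := exists_mm N S β univ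
    rw [h]
    have := card_le_card hT
    have h2 : ((T.card : ℤ)) ≤ S.card := by exact_mod_cast this
    have h3 : (0 : ℤ) ≤ (((NS N T \ β) \ univ).card : ℤ) := by positivity
    linarith
  · have := le_mm (N := N) (S := S) (β := β) (W := univ) (T := S) Subset.rfl
    rw [Finset.sdiff_eq_empty_iff_subset.2 (subset_univ _), card_empty] at this
    simpa using this

theorem mm_step_le (S β W : Finset V) (u : V) :
    mm N S β (insert u W) ≤ mm N S β W + (if u ∈ NS N S \ β then 1 else 0) := by
  obtain ⟨T, hT, h⟩ := exists_mm N S β (insert u W)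
  have h1 := le_mm (N := N) (S := S) (β := β) (W := W) hT
  rw [h]
  have h2 : ((NS N T \ β) \ W) ⊆ insert u ((NS N T \ β) \ insert u W) := by
    intro v hv
    rw [mem_insert, mem_sdiff, mem_insert]
    rw [mem_sdiff] at hv
    by_cases hvu : v = u
    · exact Or.inl hvu
    · right
      exact ⟨hv.1, fun h => h.elim hvu hv.2⟩
  by_cases hu : u ∈ NS N S \ β
  · rw [if_pos hu]
    have h3 : ((NS N T \ β) \ W).card ≤ ((NS N T \ β) \ insert u W).card + 1 :=
      (card_le_card h2).trans (card_insert_le _ _)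
    have h4 : (((NS N T \ β) \ W).card : ℤ) ≤ ((NS N T \ β) \ insert u W).card + 1 := by
      exact_mod_cast h3
    linarith
  · rw [if_neg hu]
    have h2' : ((NS N T \ β) \ W) ⊆ ((NS N T \ β) \ insert u W) := by
      intro v hv
      rcases mem_insert.1 (h2 hv) with rfl | h'
      · exfalso
        rw [mem_sdiff, mem_sdiff] at hv
        exact hu (mem_sdiff.2 ⟨NS_mono hT hv.1.1, hv.1.2⟩)
      · exact h'
    have h3 : (((NS N T \ β) \ W).card : ℤ) ≤ ((NS N T \ β) \ insert u W).card := by
      exact_mod_cast card_le_card h2'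
    linarith

theorem mm_mono_step (S β W : Finset V) (u : V) :
    mm N S β W ≤ mm N S β (insert u W) := by
  obtain ⟨T, hT, h⟩ := exists_mm N S β W
  have h1 := le_mm (N := N) (S := S) (β := β) (W := insert u W) hT
  rw [h]
  have h3 : (((NS N T \ β) \ insert u W).card : ℤ) ≤ ((NS N T \ β) \ W).card := by
    exact_mod_cast card_le_card (sdiff_subset_sdiff Subset.rfl (subset_insert _ _))
  linarith

theorem card_ind (s : Finset V) : s.card = ∑ v, (if v ∈ s then 1 else 0) := by
  simp

theorem pw (a b c d e f g h : Prop) [Decidable a] [Decidable b] [Decidable c] [Decidable d]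
    [Decidable e] [Decidable f] [Decidable g] [Decidable h] (k1 : a → c) (k2 : e → f) (k3 : a → ¬ f → d)
    (k4 : b → c ∨ d) (k5 : h → ¬ f) (k6 : h → ¬ g) :
    (if (a ∧ ¬ e) ∧ ¬ g then 1 else 0) + (if (b ∧ ¬ f) ∧ ¬ (h ∨ g) then 1 else 0) ≤
      (if (c ∧ ¬ e) ∧ ¬ (h ∨ g) then 1 else 0) + (if (d ∧ ¬ f) ∧ ¬ g then 1 else 0) := by
  by_cases hg : g
  · simp [hg]
  · by_cases hh : h
    · have hf := k5 hh
      by_cases ha : a
      · have hd := k3 ha hf
        simp [hg, hh, hf, ha, hd]
        split_ifs <;> simp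
      · simp [ha, hh]
    · by_cases hf : f
      · by_cases ha : a
        · have hc := k1 ha
          simp [hg, hh, hf, ha, hc]
        · simp [ha, hf]
      · have he : ¬ e := fun h => hf (k2 h)
        by_cases ha : a
        · have hc := k1 ha
          have hd := k3 ha hf
          simp [hg, hh, hf, ha, hc, hd, he]
          split_ifs <;> simp
        · by_cases hb : b
          · rcases k4 hb with hc | hd
            · simp [hg, hh, hf, ha, hb, hc, he]
            · simp [hg, hh, hf, ha, hb, hd, he]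
          · simp [ha, hb]

/-- The exchange inequality (M). -/
theorem mm_exchange (S1 S2 β1 B W : Finset V) (u : V) (hS : S1 \ B ⊆ S2)
    (hβ : β1 ⊆ NS N B) (hS2 : Disjoint S2 B) (hu : u ∉ NS N B) (huW : u ∉ W) :
    mm N S1 β1 (insert u W) + mm N S2 (NS N B) W ≤
      mm N S1 β1 W + mm N S2 (NS N B) (insert u W) := by
  obtain ⟨T, hT, h⟩ := exists_mm N S1 β1 (insert u W)
  obtain ⟨T', hT', h'⟩ := exists_mm N S2 (NS N B) W
  have hT1 : (T ∩ B) ∪ (T ∩ T') ⊆ S1 := by
    intro x hx
    rcases mem_union.1 hx with hx | hx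
    · exact hT (mem_inter.1 hx).1
    · exact hT (mem_inter.1 hx).1
  have hT2 : T' ∪ (T \ B) ⊆ S2 := by
    intro x hx
    rcases mem_union.1 hx with hx | hx
    · exact hT' hx
    · rw [mem_sdiff] at hx
      exact hS (mem_sdiff.2 ⟨hT hx.1, hx.2⟩)
  have g1 := le_mm (N := N) (S := S1) (β := β1) (W := W) hT1
  have g2 := le_mm (N := N) (S := S2) (β := NS N B) (W := insert u W) hT2
  have hcard : ((T ∩ B) ∪ (T ∩ T')).card + (T' ∪ (T \ B)).card = T.card + T'.card := by
    rw [card_ind, card_ind, card_ind, card_ind, ← sum_add_distrib, ← sum_add_distrib]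
    apply sum_congr rfl
    intro v _
    have hd : v ∈ T' → v ∉ B := fun h1 h2 =>
      (Finset.disjoint_left.1 hS2) (hT' h1) h2
    by_cases a1 : v ∈ T <;> by_cases a2 : v ∈ T' <;> by_cases a3 : v ∈ B <;>
      simp_all
  have hcost : ((NS N ((T ∩ B) ∪ (T ∩ T')) \ β1) \ W).card +
      ((NS N (T' ∪ (T \ B)) \ NS N B) \ insert u W).card ≤
      ((NS N T \ β1) \ insert u W).card + ((NS N T' \ NS N B) \ W).card := by
    rw [card_ind, card_ind, card_ind, card_ind, ← sum_add_distrib, ← sum_add_distrib]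
    apply sum_le_sum
    intro v _
    have k1 : v ∈ NS N ((T ∩ B) ∪ (T ∩ T')) → v ∈ NS N T := by
      intro hv
      refine NS_mono ?_ hv
      intro x hx
      rcases mem_union.1 hx with hx | hx
      · exact (mem_inter.1 hx).1
      · exact (mem_inter.1 hx).1
    have k2 : v ∈ β1 → v ∈ NS N B := fun h => hβ h
    have k3 : v ∈ NS N ((T ∩ B) ∪ (T ∩ T')) → v ∉ NS N B → v ∈ NS N T' := by
      intro hv hv'
      rw [NS_union, mem_union] at hv
      rcases hv with hv | hv
      · exact absurd (NS_mono inter_subset_right hv) hv'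
      · exact NS_mono inter_subset_right hv
    have k4 : v ∈ NS N (T' ∪ (T \ B)) → v ∈ NS N T ∨ v ∈ NS N T' := by
      intro hv
      rw [NS_union, mem_union] at hv
      rcases hv with hv | hv
      · exact Or.inr hv
      · exact Or.inl (NS_mono sdiff_subset hv)
    have k5 : v = u → v ∉ NS N B := by rintro rfl; exact hu
    have k6 : v = u → v ∉ W := by rintro rfl; exact huW
    simp only [mem_sdiff, mem_insert]
    exact pw _ _ _ _ _ _ _ _ k1 k2 k3 k4 k5 k6
  have hcard' : (((T ∩ B) ∪ (T ∩ T')).card : ℤ) + ((T' ∪ (T \ B)).card : ℤ) =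
      (T.card : ℤ) + T'.card := by exact_mod_cast hcard
  have hcost' : (((NS N ((T ∩ B) ∪ (T ∩ T')) \ β1) \ W).card : ℤ) +
      (((NS N (T' ∪ (T \ B)) \ NS N B) \ insert u W).card : ℤ) ≤
      (((NS N T \ β1) \ insert u W).card : ℤ) + (((NS N T' \ NS N B) \ W).card : ℤ) := by
    exact_mod_cast hcost
  rw [h, h']
  linarith

/-- One step of the induction: increments at `u`. -/
theorem step_ineq {B U : V → Finset V} (hC : ColHall N B U) (W : Finset V) (u : V)
    (huW : u ∉ W) :
    ∑ z', (((if u ∈ NS N (U z') \ NS N (B z') then 1 else 0 : ℤ)) -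
      (mm N (U z' \ B z') (NS N (B z')) (insert u W) - mm N (U z' \ B z') (NS N (B z')) W)) ≤
    ∑ z, (((if u ∈ NS N (opA N U z) \ opA N (opE N B) z then 1 else 0 : ℤ)) -
      (mm N (opA N U z \ opA N B z) (opA N (opE N B) z) (insert u W) -
        mm N (opA N U z \ opA N B z) (opA N (opE N B) z) W)) := by
  set e : V → ℤ := fun z' => ((if u ∈ NS N (U z') \ NS N (B z') then 1 else 0 : ℤ)) -
      (mm N (U z' \ B z') (NS N (B z')) (insert u W) - mm N (U z' \ B z') (NS N (B z')) W)
    with he
  set g : V → ℤ := fun z => ((if u ∈ NS N (opA N U z) \ opA N (opE N B) z then 1 else 0 : ℤ)) -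
      (mm N (opA N U z \ opA N B z) (opA N (opE N B) z) (insert u W) -
        mm N (opA N U z \ opA N B z) (opA N (opE N B) z) W) with hg
  -- bounds for `e`
  have he1 : ∀ z', e z' ≤ if u ∈ NS N (U z') \ NS N (B z') then 1 else 0 := by
    intro z'
    have := mm_mono_step (N := N) (U z' \ B z') (NS N (B z')) W u
    simp only [he]
    linarith
  -- bounds for `g`
  have hg0 : ∀ z, 0 ≤ g z := by
    intro z
    have h1 := mm_step_le (N := N) (opA N U z \ opA N B z) (opA N (opE N B) z) W u
    have h2 : (if u ∈ NS N (opA N U z \ opA N B z) \ opA N (opE N B) z then (1 : ℤ) else 0) ≤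
        (if u ∈ NS N (opA N U z) \ opA N (opE N B) z then 1 else 0) := by
      by_cases h : u ∈ NS N (opA N U z \ opA N B z) \ opA N (opE N B) z
      · have h' : u ∈ NS N (opA N U z) \ opA N (opE N B) z := by
          rw [mem_sdiff] at h ⊢
          exact ⟨NS_mono sdiff_subset h.1, h.2⟩
        rw [if_pos h, if_pos h']
      · rw [if_neg h]
        split_ifs <;> norm_num
    simp only [hg]
    linarith
  -- the set of `z'` with `e z' = 1`
  set T : Finset V := univ.filter fun z' => 1 ≤ e z' with hT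
  have hTQ : ∀ z' ∈ T, u ∈ NS N (U z') \ NS N (B z') := by
    intro z' hz'
    rw [hT, mem_filter] at hz'
    by_contra h
    have := he1 z'
    rw [if_neg h] at this
    linarith [hz'.2]
  obtain ⟨F, hF⟩ : ∃ F : Finset V, ∀ x, x ∈ F ↔ u ∈ N x :=
    ⟨univ.filter fun x => u ∈ N x, fun x => by simp⟩
  obtain ⟨Z, hZ⟩ : ∃ Z : Finset V, ∀ z, z ∈ Z ↔ z ∈ NS N T ∧ ∃ x ∈ F, x ∈ opA N U z :=
    ⟨(NS N T).filter fun z => ∃ x ∈ F, x ∈ opA N U z, fun z => by rw [mem_filter]⟩
  have hb : T.card ≤ Z.card := by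
    have hb := hallB hC u F (fun x hx => (hF x).1 hx) T
      (fun z' hz' => (mem_sdiff.1 (hTQ z' hz')).2)
    refine le_trans (card_le_card ?_) (hb.trans (card_le_card ?_))
    · intro z' hz'
      rw [mem_filter]
      obtain ⟨x, hx, hux⟩ := mem_NS.1 (mem_sdiff.1 (hTQ z' hz')).1
      exact ⟨hz', x, (hF x).2 hux, hx⟩
    · intro z hz
      rw [mem_filter] at hz
      exact (hZ z).2 hz
  -- every such `z` has `g z ≥ 1`
  have hg1 : ∀ z ∈ Z, 1 ≤ g z := by
    intro z hz
    rw [hZ] at hz
    obtain ⟨z', hz', hzz'⟩ := mem_NS.1 hz.1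
    obtain ⟨x, hx, hxz⟩ := hz.2
    have hux : u ∈ N x := (hF x).1 hx
    have hq := mem_sdiff.1 (hTQ z' hz')
    have hK : u ∈ NS N (opA N U z) \ opA N (opE N B) z := by
      rw [mem_sdiff]
      refine ⟨mem_NS.2 ⟨x, hxz, hux⟩, fun h => hq.2 ?_⟩
      exact mem_opA.1 h z' hzz'
    have hex := mm_exchange (N := N) (opA N U z \ opA N B z) (U z' \ B z')
      (opA N (opE N B) z) (B z') W u (by
        intro y hy
        rw [mem_sdiff, mem_sdiff] at hy
        exact mem_sdiff.2 ⟨mem_opA.1 hy.1.1 z' hzz', hy.2⟩)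
      (by
        intro y hy
        exact mem_opA.1 hy z' hzz')
      (sdiff_disjoint) hq.2 huW
    have h1 : 1 ≤ e z' := (mem_filter.1 hz').2
    simp only [he] at h1
    rw [if_pos (mem_sdiff.2 hq)] at h1
    simp only [hg]
    rw [if_pos hK]
    linarith
  have hbZ : (T.card : ℤ) ≤ (Z.card : ℤ) := by exact_mod_cast hb
  calc ∑ z', e z' ≤ ∑ z', (if z' ∈ T then (1 : ℤ) else 0) := by
        apply sum_le_sum
        intro z' _
        by_cases h : z' ∈ T
        · rw [if_pos h]
          refine (he1 z').trans ?_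
          split_ifs <;> norm_num
        · rw [if_neg h]
          rw [hT, mem_filter] at h
          have : ¬ 1 ≤ e z' := fun h' => h ⟨mem_univ _, h'⟩
          omega
    _ = T.card := by simp
    _ ≤ _ := hbZ
    _ = ∑ z, (if z ∈ Z then (1 : ℤ) else 0) := by simp
    _ ≤ ∑ z, g z := by
        apply sum_le_sum
        intro z _
        split_ifs with h
        · exact hg1 z h
        · exact hg0 z

/-- Partial sums. -/
theorem partial_ineq {B U : V → Finset V} (hC : ColHall N B U) (W : Finset V) :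
    ∑ z', ((((NS N (U z') \ NS N (B z')) ∩ W).card : ℤ) -
      (mm N (U z' \ B z') (NS N (B z')) W - mm N (U z' \ B z') (NS N (B z')) ∅)) ≤
    ∑ z, ((((NS N (opA N U z) \ opA N (opE N B) z) ∩ W).card : ℤ) -
      (mm N (opA N U z \ opA N B z) (opA N (opE N B) z) W -
        mm N (opA N U z \ opA N B z) (opA N (opE N B) z) ∅)) := by
  induction W using Finset.induction_on with
  | empty => simp
  | insert u W huW ih =>
    have hs := step_ineq (N := N) hC W u huW
    have key : ∀ X : Finset V, ((X ∩ insert u W).card : ℤ) =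
        ((X ∩ W).card : ℤ) + (if u ∈ X then 1 else 0) := by
      intro X
      by_cases hX : u ∈ X
      · rw [if_pos hX, inter_insert_of_mem hX, card_insert_of_notMem]
        · push_cast; ring
        · exact fun h => huW (mem_inter.1 h).2
      · rw [if_neg hX, inter_insert_of_notMem hX]
        ring
    have e1 : ∑ z', ((((NS N (U z') \ NS N (B z')) ∩ insert u W).card : ℤ) -
      (mm N (U z' \ B z') (NS N (B z')) (insert u W) - mm N (U z' \ B z') (NS N (B z')) ∅)) =
      ∑ z', ((((NS N (U z') \ NS N (B z')) ∩ W).card : ℤ) -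
      (mm N (U z' \ B z') (NS N (B z')) W - mm N (U z' \ B z') (NS N (B z')) ∅)) +
      ∑ z', (((if u ∈ NS N (U z') \ NS N (B z') then 1 else 0 : ℤ)) -
      (mm N (U z' \ B z') (NS N (B z')) (insert u W) -
        mm N (U z' \ B z') (NS N (B z')) W)) := by
      rw [← sum_add_distrib]
      apply sum_congr rfl
      intro z' _
      rw [key]
      ring
    have e2 : ∑ z, ((((NS N (opA N U z) \ opA N (opE N B) z) ∩ insert u W).card : ℤ) -
      (mm N (opA N U z \ opA N B z) (opA N (opE N B) z) (insert u W) -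
        mm N (opA N U z \ opA N B z) (opA N (opE N B) z) ∅)) =
      ∑ z, ((((NS N (opA N U z) \ opA N (opE N B) z) ∩ W).card : ℤ) -
      (mm N (opA N U z \ opA N B z) (opA N (opE N B) z) W -
        mm N (opA N U z \ opA N B z) (opA N (opE N B) z) ∅)) +
      ∑ z, (((if u ∈ NS N (opA N U z) \ opA N (opE N B) z then 1 else 0 : ℤ)) -
      (mm N (opA N U z \ opA N B z) (opA N (opE N B) z) (insert u W) -
        mm N (opA N U z \ opA N B z) (opA N (opE N B) z) W)) := by
      rw [← sum_add_distrib]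
      apply sum_congr rfl
      intro z _
      rw [key]
      ring
    rw [e1, e2]
    exact add_le_add ih hs

/-- The inequality (★). -/
theorem star {B U : V → Finset V} (hR : RowHall N B U) (hC : ColHall N B U) :
    ∑ z, ((opA N U z \ opA N B z).card : ℤ) + ∑ z, ((NS N (U z) \ NS N (B z)).card : ℤ) ≤
    ∑ z, ((NS N (opA N U z) \ opA N (opE N B) z).card : ℤ) + ∑ z, ((U z \ B z).card : ℤ) := by
  have h := partial_ineq (N := N) hC univ
  simp only [inter_univ, mm_univ] at h
  have h0 : ∀ z, mm N (opA N U z \ opA N B z) (opA N (opE N B) z) ∅ ≤ 0 := by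
    intro z
    obtain ⟨T, hT, hm⟩ := exists_mm N (opA N U z \ opA N B z) (opA N (opE N B) z) ∅
    rw [hm]
    obtain ⟨F, hF⟩ : ∃ F : Finset V, ∀ z', z' ∈ F ↔ z ∈ N z' :=
      ⟨univ.filter fun z' => z ∈ N z', fun x => by simp⟩
    have ha := hallA hR z F (fun z' hz' => (hF z').1 hz')
      T (fun x hx => (mem_sdiff.1 (hT hx)).1)
    have hc : T.card ≤ ((NS N T \ opA N (opE N B) z) \ ∅).card := by
      refine le_trans (card_le_card ?_) (ha.trans (card_le_card ?_))
      · intro x hx
        rw [mem_filter]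
        refine ⟨hx, fun hh => (mem_sdiff.1 (hT hx)).2 ?_⟩
        rw [mem_opA]
        intro z' hz'
        exact hh z' ((hF z').2 hz')
      · intro u hu
        rw [mem_filter] at hu
        rw [mem_sdiff, mem_sdiff]
        refine ⟨⟨hu.1, fun hh => hu.2 ?_⟩, by simp⟩
        intro z' hz'
        exact mem_opA.1 hh z' ((hF z').1 hz')
    have : (T.card : ℤ) ≤ (((NS N T \ opA N (opE N B) z) \ ∅).card : ℤ) := by exact_mod_cast hc
    linarith
  have h1 : ∀ z', 0 ≤ mm N (U z' \ B z') (NS N (B z')) ∅ := fun z' => mm_nonneg _ _ _ _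
  have s0 := Finset.sum_nonpos (s := (univ : Finset V)) (fun z _ => h0 z)
  have s1 := Finset.sum_nonneg (s := (univ : Finset V)) (fun z _ => h1 z)
  simp only [sum_sub_distrib] at h
  linarith

end Vale.Agent.P038.H327
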